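import Vale.Agent.P269.G1.H654.Cor

set_option autoImplicit false

/-!
# Contractions with the inverse pairing, and the series of Getzler's term
-/

namespace Vale.Agent.P269.G1.H654

open Finset.HasAntidiagonal (antidiagonal)
open Vale.Agent.P269.CI Vale.Agent.P269.G1

variable {X : CompleteIntersection} {F : ℕ → ℕ → List (Ins X) → ℂ}

/-- Components of the vector field given by a correlator. -/
noncomputable def QQ (F : ℕ → ℕ → List (Ins X) → ℂ) (P : List (Ins X)) (k : Fin (X.dim + 1)) :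
    RR X :=
  ∑ l : Fin (X.dim + 1), pairingInv X (Sum.inl l) (Sum.inl k) • ser (cor F 0 (P ++ [hpow X l]))

theorem qc_eq (i j k : Fin (X.dim + 1)) : qc F i j k = QQ F [hpow X i, hpow X j] k := rfl

/-- Contraction with the inverse pairing. -/
noncomputable def K (Φ : Ix X → Ix X → RR X) : RR X := ∑ α, ∑ β, pairingInv X α β • Φ α β

theorem K_eq (Φ : Ix X → Ix X → RR X) : K Φ =
    (∑ i : Fin (X.dim + 1), ∑ j : Fin (X.dim + 1),
      pairingInv X (Sum.inl i) (Sum.inl j) • Φ (Sum.inl i) (Sum.inl j)) +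
    ∑ p : X.Prim, ∑ q : X.Prim, pairingInv X (Sum.inr p) (Sum.inr q) •
      Φ (Sum.inr p) (Sum.inr q) := by
  unfold K
  rw [Fintype.sum_sum_type]
  congr 1
  · refine Finset.sum_congr rfl fun i _ => ?_
    rw [Fintype.sum_sum_type]
    have h : ∑ q : X.Prim, pairingInv X (Sum.inl i) (Sum.inr q) • Φ (Sum.inl i) (Sum.inr q) = 0 :=
      Finset.sum_eq_zero fun q _ => zero_smul _ _
    rw [h, add_zero]
  · refine Finset.sum_congr rfl fun p _ => ?_
    rw [Fintype.sum_sum_type]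
    have h : ∑ j : Fin (X.dim + 1),
        pairingInv X (Sum.inr p) (Sum.inl j) • Φ (Sum.inr p) (Sum.inl j) = 0 :=
      Finset.sum_eq_zero fun q _ => zero_smul _ _
    rw [h, zero_add]

theorem pairingInv_symm (i j : Fin (X.dim + 1)) :
    pairingInv X (Sum.inl i) (Sum.inl j) = pairingInv X (Sum.inl j) (Sum.inl i) := by
  change (if (i : ℕ) + j = X.dim then (deg X)⁻¹ else 0) =
    if (j : ℕ) + i = X.dim then (deg X)⁻¹ else 0
  rw [add_comm (i : ℕ)]

theorem K_amb (hF : IsGW X F) (h1 : IsGenusOne F) (P : List (Ins X)) (hP : ∀ y ∈ P, IsAmb X y)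
    (h : Ix X → RR X) : K (fun α β => ser (cor F 0 (P ++ [(α, 0)])) * h β) =
      ∑ k, QQ F P k * h (Sum.inl k) := by
  rw [K_eq]
  have h2 : ∑ p : X.Prim, ∑ q : X.Prim, pairingInv X (Sum.inr p) (Sum.inr q) •
      (ser (cor F 0 (P ++ [(Sum.inr p, 0)])) * h (Sum.inr q)) = 0 := by
    refine Finset.sum_eq_zero fun p _ => Finset.sum_eq_zero fun q _ => ?_
    rw [ser_prim hF h1 0 P [] p 0 hP (by simp), zero_mul, smul_zero]
  rw [h2, add_zero, Finset.sum_comm]
  refine Finset.sum_congr rfl fun k _ => ?_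
  unfold QQ
  rw [Finset.sum_mul]
  refine Finset.sum_congr rfl fun i _ => ?_
  rw [smul_mul_assoc]
  rfl

/-- The double contraction. -/
noncomputable def KK (X : CompleteIntersection) :
    (Ix X → Ix X → Ix X → Ix X → RR X) →ₗ[ℂ] RR X where
  toFun Φ := ∑ α, ∑ β, ∑ γ, ∑ δ, (pairingInv X α β * pairingInv X γ δ) • Φ α β γ δ
  map_add' Φ Ψ := by
    simp only [Pi.add_apply, smul_add, Finset.sum_add_distrib]
  map_smul' c Φ := by
    simp only [Pi.smul_apply, Finset.smul_sum, RingHom.id_apply]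
    refine Finset.sum_congr rfl fun α _ => Finset.sum_congr rfl fun β _ =>
      Finset.sum_congr rfl fun γ _ => Finset.sum_congr rfl fun δ _ => ?_
    rw [smul_comm]

theorem KK_eq (Φ : Ix X → Ix X → Ix X → Ix X → RR X) :
    KK X Φ = K fun α β => K (Φ α β) := by
  change ∑ α, ∑ β, ∑ γ, ∑ δ, (pairingInv X α β * pairingInv X γ δ) • Φ α β γ δ = _
  unfold K
  simp only [Finset.smul_sum, smul_smul]

theorem K_mul_left (c : RR X) (Φ : Ix X → Ix X → RR X) :
    K (fun γ δ => c * Φ γ δ) = c * K Φ := by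
  unfold K
  simp only [Finset.mul_sum, mul_smul_comm]

theorem KK_split (hF : IsGW X F) (h1 : IsGenusOne F) (P : List (Ins X))
    (hP : ∀ y ∈ P, IsAmb X y) (B : Ix X → Ix X → Ix X → RR X) :
    KK X (fun α β γ δ => ser (cor F 0 (P ++ [(α, 0)])) * B β γ δ) =
      ∑ k, QQ F P k * K (B (Sum.inl k)) := by
  rw [KK_eq]
  simp only [K_mul_left]
  exact K_amb hF h1 P hP fun β => K (B β)

/-! ### The trace of the pairing on the primitive part -/

theorem isUnit_det : IsUnit (Matrix.of X.form).det := isUnit_iff_ne_zero.2 X.form_nondeg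

theorem form_sum : ∑ p : X.Prim, ∑ q : X.Prim,
    pairingInv X (Sum.inr p) (Sum.inr q) * X.form p q = (-1) ^ X.dim * Fintype.card X.Prim := by
  have h : ∀ p : X.Prim, ∑ q : X.Prim, pairingInv X (Sum.inr p) (Sum.inr q) * X.form p q =
      (-1) ^ X.dim * ((Matrix.of X.form)⁻¹ * Matrix.of X.form) p p := by
    intro p
    rw [Matrix.mul_apply, Finset.mul_sum]
    refine Finset.sum_congr rfl fun q _ => ?_
    rw [X.form_symm p q]
    change (Matrix.of X.form)⁻¹ p q * ((-1) ^ X.dim * X.form q p) =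
      (-1) ^ X.dim * ((Matrix.of X.form)⁻¹ p q * X.form q p)
    ring
  rw [Finset.sum_congr rfl fun p _ => h p, Matrix.nonsing_inv_mul _ isUnit_det,
    ← Finset.mul_sum]
  simp

theorem form_sum4 : ∑ p : X.Prim, ∑ q : X.Prim, pairingInv X (Sum.inr p) (Sum.inr q) *
    (∑ r : X.Prim, ∑ s : X.Prim, pairingInv X (Sum.inr r) (Sum.inr s) *
      (X.form p r * X.form s q)) = (-1) ^ X.dim * Fintype.card X.Prim := by
  rw [← form_sum]
  refine Finset.sum_congr rfl fun p _ => Finset.sum_congr rfl fun q _ => ?_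
  congr 1
  have h : Matrix.of X.form * ((Matrix.of X.form)⁻¹ * Matrix.of X.form) = Matrix.of X.form := by
    rw [Matrix.nonsing_inv_mul _ isUnit_det, mul_one]
  have h2 := congrFun (congrFun h p) q
  rw [Matrix.mul_apply] at h2
  simp only [Matrix.mul_apply] at h2
  rw [show X.form p q = Matrix.of X.form p q from rfl, ← h2]
  refine Finset.sum_congr rfl fun r _ => ?_
  rw [Finset.mul_sum]
  refine Finset.sum_congr rfl fun s _ => ?_
  change (Matrix.of X.form)⁻¹ r s * (X.form p r * X.form s q) =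
    X.form p r * ((Matrix.of X.form)⁻¹ r s * X.form s q)
  ring

/-- The loop. -/
theorem K_loop (hF : IsGW X F) (h1 : IsGenusOne F) (P : List (Ins X))
    (hP : ∀ y ∈ P, IsAmb X y) :
    K (fun γ δ => ser (cor F 0 (P ++ [(γ, 0), (δ, 0)]))) =
      (∑ i, QQ F (P ++ [hpow X i]) i) + ((-1) ^ X.dim * Fintype.card X.Prim : ℂ) • lamP h1 P := by
  rw [K_eq]
  congr 1
  · refine Finset.sum_congr rfl fun i _ => ?_
    unfold QQ
    refine Finset.sum_congr rfl fun j _ => ?_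
    rw [pairingInv_symm, List.append_assoc]
    rfl
  · rw [← form_sum, Finset.sum_smul]
    refine Finset.sum_congr rfl fun p _ => ?_
    rw [Finset.sum_smul]
    refine Finset.sum_congr rfl fun q _ => ?_
    rw [ser_prim2' hF h1 P p q hP, smul_smul]

/-! ### The series of Getzler's term -/

variable (F) in
/-- The seven sums. -/
noncomputable def Gz1 (v : Fin 4 → Fin (X.dim + 1)) : RR X :=
  ∑ k, QQ F [hpow X (v 0), hpow X (v 1)] k * ∑ l, QQ F [hpow X (v 2), hpow X (v 3)] l *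
    ser (cor F 1 [hpow X k, hpow X l])

variable (F) in
noncomputable def Gz2 (v : Fin 4 → Fin (X.dim + 1)) : RR X :=
  ∑ k, QQ F [hpow X (v 0), hpow X (v 1)] k * ∑ l, QQ F [hpow X k, hpow X (v 2)] l *
    ser (cor F 1 [hpow X l, hpow X (v 3)])

variable (F) in
noncomputable def Gz3 (v : Fin 4 → Fin (X.dim + 1)) : RR X :=
  ∑ k, QQ F [hpow X (v 0), hpow X (v 1)] k *
    ∑ l, QQ F [hpow X k, hpow X (v 2), hpow X (v 3)] l * ser (cor F 1 [hpow X l])

variable (F) in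
noncomputable def Gz4 (v : Fin 4 → Fin (X.dim + 1)) : RR X :=
  ∑ k, QQ F [hpow X (v 0), hpow X (v 1), hpow X (v 2)] k *
    ∑ l, QQ F [hpow X k, hpow X (v 3)] l * ser (cor F 1 [hpow X l])

noncomputable def Gz5 (h1 : IsGenusOne F) (v : Fin 4 → Fin (X.dim + 1)) : RR X :=
  ∑ k, QQ F [hpow X (v 0), hpow X (v 1), hpow X (v 2)] k *
    ((∑ i, QQ F [hpow X k, hpow X (v 3), hpow X i] i) +
      ((-1) ^ X.dim * Fintype.card X.Prim : ℂ) • lamP h1 [hpow X k, hpow X (v 3)])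

noncomputable def Gz6 (h1 : IsGenusOne F) (v : Fin 4 → Fin (X.dim + 1)) : RR X :=
  ∑ k, QQ F [hpow X (v 0), hpow X (v 1), hpow X (v 2), hpow X (v 3)] k *
    ((∑ i, QQ F [hpow X k, hpow X i] i) +
      ((-1) ^ X.dim * Fintype.card X.Prim : ℂ) • lamP h1 [hpow X k])

noncomputable def Gz7 (h1 : IsGenusOne F) (v : Fin 4 → Fin (X.dim + 1)) : RR X :=
  (∑ l, ∑ i, QQ F [hpow X (v 2), hpow X (v 3), hpow X l] i *
    QQ F [hpow X (v 0), hpow X (v 1), hpow X i] l) +
      ((-1) ^ X.dim * Fintype.card X.Prim : ℂ) •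
        (lamP h1 [hpow X (v 0), hpow X (v 1)] * lamP h1 [hpow X (v 2), hpow X (v 3)])

theorem amb_two (i j : Fin (X.dim + 1)) : ∀ y ∈ [hpow X i, hpow X j], IsAmb X y :=
  isAmb_map [i, j]

theorem amb_three (i j k : Fin (X.dim + 1)) : ∀ y ∈ [hpow X i, hpow X j, hpow X k], IsAmb X y :=
  isAmb_map [i, j, k]

theorem amb_four (i j k l : Fin (X.dim + 1)) :
    ∀ y ∈ [hpow X i, hpow X j, hpow X k, hpow X l], IsAmb X y :=
  isAmb_map [i, j, k, l]

section parts

variable (F) (v : Fin 4 → Fin (X.dim + 1))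

noncomputable def A1 (α β γ δ : Ix X) : RR X :=
  ser (cor F 0 ([hpow X (v 0), hpow X (v 1)] ++ [(α, 0)])) *
    (ser (cor F 0 ([hpow X (v 2), hpow X (v 3)] ++ [(γ, 0)])) * ser (cor F 1 [(β, 0), (δ, 0)]))

noncomputable def A2 (α β γ δ : Ix X) : RR X :=
  ser (cor F 0 ([hpow X (v 0), hpow X (v 1)] ++ [(α, 0)])) *
    (ser (cor F 0 ([(β, 0), hpow X (v 2)] ++ [(γ, 0)])) * ser (cor F 1 [(δ, 0), hpow X (v 3)]))

noncomputable def A3 (α β γ δ : Ix X) : RR X :=
  ser (cor F 0 ([hpow X (v 0), hpow X (v 1)] ++ [(α, 0)])) *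
    (ser (cor F 0 ([(β, 0), hpow X (v 2), hpow X (v 3)] ++ [(γ, 0)])) * ser (cor F 1 [(δ, 0)]))

noncomputable def A4 (α β γ δ : Ix X) : RR X :=
  ser (cor F 0 ([hpow X (v 0), hpow X (v 1), hpow X (v 2)] ++ [(α, 0)])) *
    (ser (cor F 0 ([(β, 0), hpow X (v 3)] ++ [(γ, 0)])) * ser (cor F 1 [(δ, 0)]))

noncomputable def A5 (α β γ δ : Ix X) : RR X :=
  ser (cor F 0 ([hpow X (v 0), hpow X (v 1), hpow X (v 2)] ++ [(α, 0)])) *
    ser (cor F 0 ([(β, 0), hpow X (v 3)] ++ [(γ, 0), (δ, 0)]))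

noncomputable def A6 (α β γ δ : Ix X) : RR X :=
  ser (cor F 0 ([hpow X (v 0), hpow X (v 1), hpow X (v 2), hpow X (v 3)] ++ [(α, 0)])) *
    ser (cor F 0 ([(β, 0)] ++ [(γ, 0), (δ, 0)]))

noncomputable def A7 (α β γ δ : Ix X) : RR X :=
  ser (cor F 0 [hpow X (v 0), hpow X (v 1), (α, 0), (γ, 0)]) *
    ser (cor F 0 [(δ, 0), (β, 0), hpow X (v 2), hpow X (v 3)])

end parts

theorem KK1 (hF : IsGW X F) (h1 : IsGenusOne F) (v : Fin 4 → Fin (X.dim + 1)) :
    KK X (A1 F v) = Gz1 F v :=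
  (KK_split hF h1 _ (amb_two _ _) _).trans <| Finset.sum_congr rfl fun k _ =>
    congrArg _ (K_amb hF h1 _ (amb_two _ _) fun δ => ser (cor F 1 [(Sum.inl k, 0), (δ, 0)]))

theorem KK2 (hF : IsGW X F) (h1 : IsGenusOne F) (v : Fin 4 → Fin (X.dim + 1)) :
    KK X (A2 F v) = Gz2 F v :=
  (KK_split hF h1 _ (amb_two _ _) _).trans <| Finset.sum_congr rfl fun k _ =>
    congrArg _ (K_amb hF h1 [hpow X k, hpow X (v 2)] (amb_two _ _)
      fun δ => ser (cor F 1 [(δ, 0), hpow X (v 3)]))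

theorem KK3 (hF : IsGW X F) (h1 : IsGenusOne F) (v : Fin 4 → Fin (X.dim + 1)) :
    KK X (A3 F v) = Gz3 F v :=
  (KK_split hF h1 _ (amb_two _ _) _).trans <| Finset.sum_congr rfl fun k _ =>
    congrArg _ (K_amb hF h1 [hpow X k, hpow X (v 2), hpow X (v 3)] (amb_three _ _ _)
      fun δ => ser (cor F 1 [(δ, 0)]))

theorem KK4 (hF : IsGW X F) (h1 : IsGenusOne F) (v : Fin 4 → Fin (X.dim + 1)) :
    KK X (A4 F v) = Gz4 F v :=
  (KK_split hF h1 _ (amb_three _ _ _) _).trans <| Finset.sum_congr rfl fun k _ =>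
    congrArg _ (K_amb hF h1 [hpow X k, hpow X (v 3)] (amb_two _ _)
      fun δ => ser (cor F 1 [(δ, 0)]))

theorem KK5 (hF : IsGW X F) (h1 : IsGenusOne F) (v : Fin 4 → Fin (X.dim + 1)) :
    KK X (A5 F v) = Gz5 h1 v :=
  (KK_split hF h1 _ (amb_three _ _ _) _).trans <| Finset.sum_congr rfl fun k _ =>
    congrArg _ (K_loop hF h1 [hpow X k, hpow X (v 3)] (amb_two _ _))

theorem KK6 (hF : IsGW X F) (h1 : IsGenusOne F) (v : Fin 4 → Fin (X.dim + 1)) :
    KK X (A6 F v) = Gz6 h1 v :=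
  (KK_split hF h1 _ (amb_four _ _ _ _) _).trans <| Finset.sum_congr rfl fun k _ =>
    congrArg _ (K_loop hF h1 [hpow X k] (isAmb_map [k]))

theorem KK7 (hF : IsGW X F) (h1 : IsGenusOne F) (v : Fin 4 → Fin (X.dim + 1)) :
    KK X (A7 F v) = Gz7 h1 v := by
  rw [KK_eq, K_eq, Gz7]
  unfold A7
  congr 1
  · -- the ambient part
    have e : ∀ i j : Fin (X.dim + 1),
        K (fun γ δ => ser (cor F 0 [hpow X (v 0), hpow X (v 1), (Sum.inl i, 0), (γ, 0)]) *
          ser (cor F 0 [(δ, 0), (Sum.inl j, 0), hpow X (v 2), hpow X (v 3)])) =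
        ∑ l, QQ F [hpow X (v 0), hpow X (v 1), hpow X i] l *
          ser (cor F 0 [hpow X (v 2), hpow X (v 3), hpow X l, hpow X j]) := by
      intro i j
      have h2 := K_amb hF h1 [hpow X (v 0), hpow X (v 1), hpow X i] (amb_three _ _ _)
        (fun δ => ser (cor F 0 [(δ, 0), (Sum.inl j, 0), hpow X (v 2), hpow X (v 3)]))
      refine h2.trans (Finset.sum_congr rfl fun l _ => ?_)
      congr 1
      refine ser_perm hF 0 (P := [hpow X l, hpow X j, hpow X (v 2), hpow X (v 3)])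
        (Q := [hpow X (v 2), hpow X (v 3), hpow X l, hpow X j]) ?_ (amb_four _ _ _ _)
      exact List.perm_append_comm (l₁ := [hpow X l, hpow X j])
        (l₂ := [hpow X (v 2), hpow X (v 3)])
    simp only [e]
    have e2 : ∀ l i : Fin (X.dim + 1), QQ F [hpow X (v 2), hpow X (v 3), hpow X l] i *
        QQ F [hpow X (v 0), hpow X (v 1), hpow X i] l =
        ∑ j, pairingInv X (Sum.inl i) (Sum.inl j) •
          (QQ F [hpow X (v 0), hpow X (v 1), hpow X i] l *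
            ser (cor F 0 [hpow X (v 2), hpow X (v 3), hpow X l, hpow X j])) := by
      intro l i
      conv_lhs => rw [QQ]
      rw [Finset.sum_mul]
      refine Finset.sum_congr rfl fun j _ => ?_
      rw [pairingInv_symm, smul_mul_assoc, mul_comm]
      rfl
    simp only [e2, Finset.smul_sum]
    conv_rhs => rw [Finset.sum_comm]
    refine Finset.sum_congr rfl fun i _ => ?_
    rw [Finset.sum_comm]
  · -- the primitive part
    have e : ∀ p q : X.Prim,
        K (fun γ δ => ser (cor F 0 [hpow X (v 0), hpow X (v 1), (Sum.inr p, 0), (γ, 0)]) *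
          ser (cor F 0 [(δ, 0), (Sum.inr q, 0), hpow X (v 2), hpow X (v 3)])) =
        (∑ r : X.Prim, ∑ s : X.Prim, pairingInv X (Sum.inr r) (Sum.inr s) *
          (X.form p r * X.form s q)) •
          (lamP h1 [hpow X (v 0), hpow X (v 1)] * lamP h1 [hpow X (v 2), hpow X (v 3)]) := by
      intro p q
      rw [K_eq]
      have h2 : ∀ k : Fin (X.dim + 1),
          ser (cor F 0 [hpow X (v 0), hpow X (v 1), (Sum.inr p, 0), (Sum.inl k, 0)]) = 0 :=
        fun k => ser_prim hF h1 0 [hpow X (v 0), hpow X (v 1)] [hpow X k] p 0 (amb_two _ _)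
          (isAmb_map [k])
      have h3 : ∀ r : X.Prim,
          ser (cor F 0 [hpow X (v 0), hpow X (v 1), (Sum.inr p, 0), (Sum.inr r, 0)]) =
          X.form p r • lamP h1 [hpow X (v 0), hpow X (v 1)] :=
        fun r => ser_prim2' hF h1 [hpow X (v 0), hpow X (v 1)] p r (amb_two _ _)
      have h4 : ∀ s : X.Prim,
          ser (cor F 0 [(Sum.inr s, 0), (Sum.inr q, 0), hpow X (v 2), hpow X (v 3)]) =
          X.form s q • lamP h1 [hpow X (v 2), hpow X (v 3)] :=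
        fun s => ser_prim2 h1 [hpow X (v 2), hpow X (v 3)] s q (amb_two _ _)
      simp only [h2, h3, h4, zero_mul, smul_zero, Finset.sum_const_zero, zero_add,
        Finset.sum_smul, smul_mul_smul_comm, smul_smul]
    simp only [e]
    rw [← form_sum4, Finset.sum_smul]
    refine Finset.sum_congr rfl fun p _ => ?_
    rw [Finset.sum_smul]
    refine Finset.sum_congr rfl fun q _ => ?_
    rw [smul_smul]

theorem ser3 (hF : IsGW X F) (g1 g2 g3 : ℕ) (P Q R : List (Ins X)) :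
    ser (mulS (mulS (cor F g1 P) (cor F g2 Q)) (cor F g3 R)) =
      ser (cor F g1 P) * (ser (cor F g2 Q) * ser (cor F g3 R)) := by
  rw [H598.ser_mulS _ _ (symS_mulS (symS_cor hF g1 P) (symS_cor hF g2 Q)) (symS_cor hF g3 R),
    H598.ser_mulS _ _ (symS_cor hF g1 P) (symS_cor hF g2 Q), mul_assoc]

theorem ser2 (hF : IsGW X F) (g1 g2 : ℕ) (P Q : List (Ins X)) :
    ser (mulS (cor F g1 P) (cor F g2 Q)) = ser (cor F g1 P) * ser (cor F g2 Q) :=
  H598.ser_mulS _ _ (symS_cor hF g1 P) (symS_cor hF g2 Q)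

/-- The inner function of Getzler's term. -/
noncomputable def inner (F : ℕ → ℕ → List (Ins X) → ℂ) (v : Fin 4 → Fin (X.dim + 1))
    (α β γ δ : Ix X) : ℕ → List (Ins X) → ℂ :=
  (3:ℂ) • mulS (mulS (cor F 0 [hpow X (v 0), hpow X (v 1), (α, 0)])
      (cor F 0 [hpow X (v 2), hpow X (v 3), (γ, 0)])) (cor F 1 [(β, 0), (δ, 0)])
  - (4:ℂ) • mulS (mulS (cor F 0 [hpow X (v 0), hpow X (v 1), (α, 0)])
      (cor F 0 [(β, 0), hpow X (v 2), (γ, 0)])) (cor F 1 [(δ, 0), hpow X (v 3)])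
  - mulS (mulS (cor F 0 [hpow X (v 0), hpow X (v 1), (α, 0)])
      (cor F 0 [(β, 0), hpow X (v 2), hpow X (v 3), (γ, 0)])) (cor F 1 [(δ, 0)])
  + (2:ℂ) • mulS (mulS (cor F 0 [hpow X (v 0), hpow X (v 1), hpow X (v 2), (α, 0)])
      (cor F 0 [(β, 0), hpow X (v 3), (γ, 0)])) (cor F 1 [(δ, 0)])
  + (1 / 6 : ℂ) • mulS (cor F 0 [hpow X (v 0), hpow X (v 1), hpow X (v 2), (α, 0)])
      (cor F 0 [(β, 0), hpow X (v 3), (γ, 0), (δ, 0)])
  + (1 / 24 : ℂ) • mulS (cor F 0 [hpow X (v 0), hpow X (v 1), hpow X (v 2), hpow X (v 3),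
      (α, 0)]) (cor F 0 [(β, 0), (γ, 0), (δ, 0)])
  - (1 / 4 : ℂ) • mulS (cor F 0 [hpow X (v 0), hpow X (v 1), (α, 0), (γ, 0)])
      (cor F 0 [(δ, 0), (β, 0), hpow X (v 2), hpow X (v 3)])

theorem getzlerTerm_eq (v : Fin 4 → Fin (X.dim + 1)) : getzlerTerm F v =
    ∑ α : Ix X, ∑ β : Ix X, ∑ γ : Ix X, ∑ δ : Ix X,
      (pairingInv X α β * pairingInv X γ δ) • inner F v α β γ δ := by
  funext d L
  simp only [getzlerTerm, inner, Finset.sum_apply, Pi.smul_apply, Pi.add_apply, Pi.sub_apply,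
    smul_eq_mul]

theorem ser_inner (hF : IsGW X F) (v : Fin 4 → Fin (X.dim + 1)) (α β γ δ : Ix X) :
    serL X (inner F v α β γ δ) = (3:ℂ) • A1 F v α β γ δ - (4:ℂ) • A2 F v α β γ δ -
        A3 F v α β γ δ + (2:ℂ) • A4 F v α β γ δ + (1 / 6 : ℂ) • A5 F v α β γ δ +
        (1 / 24 : ℂ) • A6 F v α β γ δ - (1 / 4 : ℂ) • A7 F v α β γ δ := by
  unfold inner
  rw [map_sub, map_add, map_add, map_add, map_sub, map_sub, map_smul, map_smul, map_smul,
    map_smul, map_smul, map_smul]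
  simp only [serL_apply, ser3 hF, ser2 hF]
  rfl

theorem ser_getzlerTerm (hF : IsGW X F) (h1 : IsGenusOne F) (v : Fin 4 → Fin (X.dim + 1)) :
    ser (getzlerTerm F v) = (3:ℂ) • Gz1 F v - (4:ℂ) • Gz2 F v - Gz3 F v + (2:ℂ) • Gz4 F v +
      (1 / 6 : ℂ) • Gz5 h1 v + (1 / 24 : ℂ) • Gz6 h1 v - (1 / 4 : ℂ) • Gz7 h1 v := by
  have e2 : ser (getzlerTerm F v) = KK X ((3:ℂ) • A1 F v - (4:ℂ) • A2 F v - A3 F v +
      (2:ℂ) • A4 F v + (1 / 6 : ℂ) • A5 F v + (1 / 24 : ℂ) • A6 F v - (1 / 4 : ℂ) • A7 F v) := by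
    rw [← serL_apply, getzlerTerm_eq]
    conv_lhs => simp only [map_sum, map_smul, ser_inner hF]
    rfl
  rw [e2]
  rw [map_sub, map_add, map_add, map_add, map_sub, map_sub, map_smul, map_smul, map_smul,
    map_smul, map_smul, map_smul]
  rw [KK1 hF h1 v, KK2 hF h1 v, KK3 hF h1 v, KK4 hF h1 v, KK5 hF h1 v, KK6 hF h1 v, KK7 hF h1 v]

end Vale.Agent.P269.G1.H654
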