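import Vale.Agent.P269.G1.Conc
import Vale.Agent.P269.G1.H654.Contr
import Vale.Agent.P269.G1.H654.Multi

set_option autoImplicit false

/-!
# [c7] Getzler's relation for the small phase space
-/

namespace Vale.Agent.P269.G1.H654

open Finset.HasAntidiagonal (antidiagonal)
open Vale.Agent.P269.CI Vale.Agent.P269.G1

variable {X : CompleteIntersection} {F : ℕ → ℕ → List (Ins X) → ℂ}

variable (hF : IsGW X F) (h1 : IsGenusOne F)

/-- The coordinate fields. -/
noncomputable abbrev ee : Module.Basis (Fin (X.dim + 1)) (RR X) (AA hF h1) :=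
  QA.bas (consts hF h1)

theorem ee_apply (i k : Fin (X.dim + 1)) :
    (ee hF h1 i : AA hF h1) k = if k = i then 1 else 0 := QA.bas_apply (consts hF h1) i k

theorem sum_ee (x : AA hF h1) : ∑ k, x k • ee hF h1 k = x := (ee hF h1).sum_repr x

theorem lin_expand {M : Type*} [AddCommGroup M] [Module (RR X) M] (f : AA hF h1 →ₗ[RR X] M)
    (x : AA hF h1) : f x = ∑ k, x k • f (ee hF h1 k) := by
  conv_lhs => rw [← sum_ee hF h1 x]
  rw [map_sum]
  exact Finset.sum_congr rfl fun k _ => map_smul f _ _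

theorem QA_sum_apply {ι : Type*} (s : Finset ι) (g : ι → AA hF h1) (b : Fin (X.dim + 1)) :
    (∑ k ∈ s, g k : AA hF h1) b = ∑ k ∈ s, g k b :=
  Finset.sum_apply (M := fun _ : Fin (X.dim + 1) => RR X) b s g

theorem der_ee (i : Fin (X.dim + 1)) (f : RR X) :
    der hF h1 (ee hF h1 i) f = MvPowerSeries.pderiv (PowerSeries ℂ) i f := by
  unfold der
  rw [Finset.sum_eq_single i]
  · rw [ee_apply, if_pos rfl, one_mul]
  · intro k _ hk
    rw [ee_apply, if_neg hk, zero_mul]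
  · intro h
    exact absurd (Finset.mem_univ i) h

theorem der_one' (x : AA hF h1) : der hF h1 x 1 = 0 := by
  unfold der
  refine Finset.sum_eq_zero fun i _ => ?_
  rw [Derivation.map_one_eq_zero, mul_zero]

theorem der_zero' (x : AA hF h1) : der hF h1 x 0 = 0 := by
  unfold der
  refine Finset.sum_eq_zero fun i _ => ?_
  rw [map_zero, mul_zero]

theorem nab_ee (x : AA hF h1) (j : Fin (X.dim + 1)) : nab hF h1 x (ee hF h1 j) = 0 := by
  funext k
  change der hF h1 x ((ee hF h1 j : AA hF h1) k) = 0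
  rw [ee_apply]
  split_ifs
  · exact der_one' hF h1 x
  · exact der_zero' hF h1 x

theorem mul_ee (i j k : Fin (X.dim + 1)) :
    (ee hF h1 i * ee hF h1 j : AA hF h1) k = QQ F [hpow X i, hpow X j] k := by
  rw [QA.mul_def, Finset.sum_eq_single i, Finset.sum_eq_single j]
  · rw [ee_apply, ee_apply, if_pos rfl, if_pos rfl, one_mul, one_mul]
    rfl
  · intro b _ hb
    rw [ee_apply hF h1 j b, if_neg hb, mul_zero, zero_mul]
  · simp
  · intro b _ hb
    refine Finset.sum_eq_zero fun j' _ => ?_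
    rw [ee_apply hF h1 i b, if_neg hb, zero_mul, zero_mul]
  · simp

theorem pderiv_QQ (hF : IsGW X F) (i : Fin (X.dim + 1)) (P : List (Ins X))
    (k : Fin (X.dim + 1)) :
    MvPowerSeries.pderiv (PowerSeries ℂ) i (QQ F P k) = QQ F (hpow X i :: P) k := by
  unfold QQ
  rw [map_sum]
  refine Finset.sum_congr rfl fun l _ => ?_
  rw [Derivation.map_smul_of_tower, pderiv_cor hF]
  rfl

theorem c4_ee (i j l k : Fin (X.dim + 1)) :
    ((frob hF h1).c4 (ee hF h1 i) (ee hF h1 j) (ee hF h1 l) : AA hF h1) k =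
      QQ F [hpow X i, hpow X j, hpow X l] k := by
  have e : (frob hF h1).c4 (ee hF h1 i) (ee hF h1 j) (ee hF h1 l) =
      nab hF h1 (ee hF h1 i) (ee hF h1 j * ee hF h1 l) := by
    change nab hF h1 (ee hF h1 i) (ee hF h1 j * ee hF h1 l) -
      nab hF h1 (ee hF h1 i) (ee hF h1 j) * ee hF h1 l -
      ee hF h1 j * nab hF h1 (ee hF h1 i) (ee hF h1 l) = _
    rw [nab_ee, nab_ee, zero_mul, mul_zero, sub_zero, sub_zero]
  rw [e]
  change der hF h1 (ee hF h1 i) ((ee hF h1 j * ee hF h1 l : AA hF h1) k) = _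
  rw [mul_ee, der_ee, pderiv_QQ hF]

theorem c5_ee (w i j l k : Fin (X.dim + 1)) :
    ((frob hF h1).c5 (ee hF h1 w) (ee hF h1 i) (ee hF h1 j) (ee hF h1 l) : AA hF h1) k =
      QQ F [hpow X w, hpow X i, hpow X j, hpow X l] k := by
  have z1 : ∀ x y : AA hF h1, (frob hF h1).c4 0 x y = 0 := by
    intro x y
    have := c4_smul1 (frob hF h1) 0 0 x y
    rwa [zero_smul, zero_smul] at this
  have z2 : ∀ x y : AA hF h1, (frob hF h1).c4 x 0 y = 0 := by
    intro x y
    have := c4_smul2 (frob hF h1) 0 x 0 y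
    rwa [zero_smul, zero_smul] at this
  have z3 : ∀ x y : AA hF h1, (frob hF h1).c4 x y 0 = 0 := by
    intro x y
    have := c4_smul3 (frob hF h1) 0 x y 0
    rwa [zero_smul, zero_smul] at this
  have e : (frob hF h1).c5 (ee hF h1 w) (ee hF h1 i) (ee hF h1 j) (ee hF h1 l) =
      nab hF h1 (ee hF h1 w) ((frob hF h1).c4 (ee hF h1 i) (ee hF h1 j) (ee hF h1 l)) := by
    change nab hF h1 (ee hF h1 w) ((frob hF h1).c4 (ee hF h1 i) (ee hF h1 j) (ee hF h1 l)) -
      (frob hF h1).c4 (nab hF h1 (ee hF h1 w) (ee hF h1 i)) (ee hF h1 j) (ee hF h1 l) -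
      (frob hF h1).c4 (ee hF h1 i) (nab hF h1 (ee hF h1 w) (ee hF h1 j)) (ee hF h1 l) -
      (frob hF h1).c4 (ee hF h1 i) (ee hF h1 j) (nab hF h1 (ee hF h1 w) (ee hF h1 l)) = _
    rw [nab_ee, nab_ee, nab_ee, z1, z2, z3, sub_zero, sub_zero, sub_zero]
  rw [e]
  change der hF h1 (ee hF h1 w)
    (((frob hF h1).c4 (ee hF h1 i) (ee hF h1 j) (ee hF h1 l) : AA hF h1) k) = _
  rw [c4_ee, der_ee, pderiv_QQ hF]

theorem G_ee (i : Fin (X.dim + 1)) : (frob hF h1).G (ee hF h1 i) = ser (cor F 1 [hpow X i]) := by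
  change ∑ k, (ee hF h1 i : AA hF h1) k * ser (cor F 1 [hpow X k]) = _
  rw [Finset.sum_eq_single i]
  · rw [ee_apply, if_pos rfl, one_mul]
  · intro k _ hk
    rw [ee_apply, if_neg hk, zero_mul]
  · simp

theorem H_ee (i j : Fin (X.dim + 1)) :
    (frob hF h1).H (ee hF h1 i) (ee hF h1 j) = ser (cor F 1 [hpow X i, hpow X j]) := by
  change der hF h1 (ee hF h1 i) ((frob hF h1).G (ee hF h1 j)) -
    (frob hF h1).G (nab hF h1 (ee hF h1 i) (ee hF h1 j)) = _
  rw [nab_ee, map_zero, sub_zero, G_ee, der_ee, pderiv_cor hF]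

/-! ### Traces -/

theorem trace_eq (T : Module.End (RR X) (AA hF h1)) :
    LinearMap.trace (RR X) (AA hF h1) T = ∑ i, (T (ee hF h1 i) : AA hF h1) i := by
  rw [LinearMap.trace_eq_matrix_trace (RR X) (ee hF h1), Matrix.trace]
  refine Finset.sum_congr rfl fun i _ => ?_
  rw [Matrix.diag_apply, LinearMap.toMatrix_apply]
  rfl

theorem c4O_fst (x y z : AA hF h1) :
    ((frob hF h1).c4O x y).1 z = (frob hF h1).c4 x y z := by
  change (nab hF h1 x (y * z) - y * nab hF h1 x z) - nab hF h1 x y * z =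
    nab hF h1 x (y * z) - nab hF h1 x y * z - y * nab hF h1 x z
  abel

theorem lam_ee (k : Fin (X.dim + 1)) (v : X.Prim) : lam hF h1 (ee hF h1 k) v = lamc h1 k := by
  change ∑ i, (ee hF h1 k : AA hF h1) i * lamc h1 i = _
  rw [Finset.sum_eq_single k]
  · rw [ee_apply, if_pos rfl, one_mul]
  · intro i _ hi
    rw [ee_apply, if_neg hi, zero_mul]
  · simp

theorem c4O_snd (i j : Fin (X.dim + 1)) (v : X.Prim) :
    ((frob hF h1).c4O (ee hF h1 i) (ee hF h1 j)).2 v = lamP h1 [hpow X j, hpow X i] := by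
  change der hF h1 (ee hF h1 i) (lam hF h1 (ee hF h1 j) v) -
    lam hF h1 (nab hF h1 (ee hF h1 i) (ee hF h1 j)) v = _
  rw [nab_ee, map_zero, lam_ee, der_ee, pderiv_lamc' hF h1 v]
  change _ - (0 : RR X) = _
  rw [sub_zero]

theorem cst_mul (c : ℂ) (f : RR X) : cst X c * f = c • f := by
  unfold cst
  rw [← MvPowerSeries.smul_eq_C_mul]
  funext α
  change PowerSeries.C c * f α = c • f α
  rw [← PowerSeries.smul_eq_C_mul]

theorem str_mk (T : Module.End (RR X) (AA hF h1)) (g : X.Prim → RR X) (f : RR X)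
    (hg : ∀ v, g v = f) : (frob hF h1).str (T, g) =
      (∑ i, (T (ee hF h1 i) : AA hF h1) i) + ((-1) ^ X.dim * Fintype.card X.Prim : ℂ) • f := by
  change LinearMap.trace (RR X) (AA hF h1) T + cst X ((-1) ^ X.dim) * ∑ v, g v = _
  rw [trace_eq, cst_mul]
  congr 1
  simp only [hg, Finset.sum_const, Finset.card_univ]
  rw [mul_smul, Nat.cast_smul_eq_nsmul]

/-- The value on the primitive part, constant along the basis. -/
theorem str_of (a : OO hF h1) (f : RR X) (hg : ∀ v, a.2 v = f) : (frob hF h1).str a =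
      (∑ i, (a.1 (ee hF h1 i) : AA hF h1) i) +
        ((-1) ^ X.dim * Fintype.card X.Prim : ℂ) • f :=
  str_mk hF h1 a.1 a.2 f hg

theorem QQ_perm (hF : IsGW X F) {P Q : List (Ins X)} (h : P.Perm Q)
    (hP : ∀ y ∈ P, IsAmb X y) (k : Fin (X.dim + 1)) : QQ F P k = QQ F Q k := by
  unfold QQ
  refine Finset.sum_congr rfl fun l _ => ?_
  rw [ser_perm hF 0 (h.append_right [hpow X l]) (isAmb_append hP (isAmb_map [l]))]

theorem str_C (k : Fin (X.dim + 1)) : (frob hF h1).str ((frob hF h1).C (ee hF h1 k)) =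
    (∑ i, QQ F [hpow X k, hpow X i] i) +
      ((-1) ^ X.dim * Fintype.card X.Prim : ℂ) • lamP h1 [hpow X k] := by
  rw [str_of hF h1 _ (lamP h1 [hpow X k]) (fun v => lam_ee hF h1 k v)]
  congr 1
  exact Finset.sum_congr rfl fun i _ => mul_ee hF h1 k i i

theorem str_c4O (i j : Fin (X.dim + 1)) :
    (frob hF h1).str ((frob hF h1).c4O (ee hF h1 j) (ee hF h1 i)) =
    (∑ l, QQ F [hpow X i, hpow X j, hpow X l] l) +
      ((-1) ^ X.dim * Fintype.card X.Prim : ℂ) • lamP h1 [hpow X i, hpow X j] := by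
  rw [str_of hF h1 _ (lamP h1 [hpow X i, hpow X j]) (fun v => c4O_snd hF h1 j i v)]
  congr 1
  refine Finset.sum_congr rfl fun l _ => ?_
  rw [c4O_fst, c4_ee]
  exact QQ_perm hF (List.Perm.swap _ _ _) (amb_three _ _ _) l

theorem str_c4O_mul (i j k l : Fin (X.dim + 1)) :
    (frob hF h1).str ((frob hF h1).c4O (ee hF h1 i) (ee hF h1 j) *
      (frob hF h1).c4O (ee hF h1 k) (ee hF h1 l)) =
    (∑ b, ∑ a, QQ F [hpow X k, hpow X l, hpow X b] a * QQ F [hpow X i, hpow X j, hpow X a] b) +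
      ((-1) ^ X.dim * Fintype.card X.Prim : ℂ) •
        (lamP h1 [hpow X i, hpow X j] * lamP h1 [hpow X k, hpow X l]) := by
  rw [str_of hF h1 _ (lamP h1 [hpow X i, hpow X j] * lamP h1 [hpow X k, hpow X l]) (fun v => ?_)]
  · congr 1
    refine Finset.sum_congr rfl fun b _ => ?_
    change (((frob hF h1).c4O (ee hF h1 i) (ee hF h1 j)).1
      (((frob hF h1).c4O (ee hF h1 k) (ee hF h1 l)).1 (ee hF h1 b)) : AA hF h1) b = _
    rw [lin_expand hF h1 ((frob hF h1).c4O (ee hF h1 i) (ee hF h1 j)).1, QA_sum_apply]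
    refine Finset.sum_congr rfl fun a _ => ?_
    rw [c4O_fst hF h1 (ee hF h1 k), c4_ee, c4O_fst, QA.smul_apply, c4_ee]
  · change ((frob hF h1).c4O (ee hF h1 i) (ee hF h1 j)).2 v *
      ((frob hF h1).c4O (ee hF h1 k) (ee hF h1 l)).2 v = _
    rw [c4O_snd, c4O_snd, lamP_swap hF h1 v i j, lamP_swap hF h1 v k l]

/-! ### Linear maps -/

variable (S : Frob (RR X) (AA hF h1) (OO hF h1))

noncomputable def Hl (y : AA hF h1) : AA hF h1 →ₗ[RR X] RR X where
  toFun x := (frob hF h1).H x y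
  map_add' x x' := H_add_left _ x x' y
  map_smul' g x := H_smul_left _ g x y

noncomputable def Hr (x : AA hF h1) : AA hF h1 →ₗ[RR X] RR X where
  toFun y := (frob hF h1).H x y
  map_add' y y' := H_add_right _ x y y'
  map_smul' g y := H_smul_right _ g x y

noncomputable def c4l (y z : AA hF h1) : AA hF h1 →ₗ[RR X] AA hF h1 where
  toFun x := (frob hF h1).c4 x y z
  map_add' x x' := c4_add1 _ x x' y z
  map_smul' g x := c4_smul1 _ g x y z

noncomputable def mulR (z : AA hF h1) : AA hF h1 →ₗ[RR X] AA hF h1 where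
  toFun x := x * z
  map_add' x x' := add_mul x x' z
  map_smul' g x := smul_mul_assoc g x z

noncomputable def c4Or (x : AA hF h1) : AA hF h1 →ₗ[RR X] OO hF h1 where
  toFun y := (frob hF h1).c4O x y
  map_add' y y' := c4O_add2 _ x y y'
  map_smul' g y := c4O_smul2 _ g x y

variable (v : Fin 4 → Fin (X.dim + 1))

theorem Hl_apply (x y : AA hF h1) : Hl hF h1 y x = (frob hF h1).H x y := rfl
theorem Hr_apply (x y : AA hF h1) : Hr hF h1 x y = (frob hF h1).H x y := rfl
theorem c4l_apply (x y z : AA hF h1) : c4l hF h1 y z x = (frob hF h1).c4 x y z := rfl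
theorem mulR_apply (x z : AA hF h1) : mulR hF h1 z x = x * z := rfl
theorem c4Or_apply (x y : AA hF h1) : c4Or hF h1 x y = (frob hF h1).c4O x y := rfl

theorem H_mul_ee (k a b : Fin (X.dim + 1)) :
    (frob hF h1).H (ee hF h1 k) (ee hF h1 a * ee hF h1 b) =
    ∑ l, QQ F [hpow X a, hpow X b] l * ser (cor F 1 [hpow X k, hpow X l]) := by
  rw [← Hr_apply, lin_expand hF h1 (Hr hF h1 _)]
  refine Finset.sum_congr rfl fun l _ => ?_
  rw [mul_ee, smul_eq_mul, Hr_apply, H_ee]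

theorem H_mul_ee' (k a b : Fin (X.dim + 1)) :
    (frob hF h1).H (ee hF h1 a * ee hF h1 b) (ee hF h1 k) =
    ∑ l, QQ F [hpow X a, hpow X b] l * ser (cor F 1 [hpow X l, hpow X k]) := by
  rw [← Hl_apply, lin_expand hF h1 (Hl hF h1 _)]
  refine Finset.sum_congr rfl fun l _ => ?_
  rw [mul_ee, smul_eq_mul, Hl_apply, H_ee]

theorem G_c4_ee (a b c : Fin (X.dim + 1)) :
    (frob hF h1).G ((frob hF h1).c4 (ee hF h1 a) (ee hF h1 b) (ee hF h1 c)) =
    ∑ l, QQ F [hpow X a, hpow X b, hpow X c] l * ser (cor F 1 [hpow X l]) := by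
  rw [lin_expand hF h1 (frob hF h1).G]
  refine Finset.sum_congr rfl fun l _ => ?_
  rw [c4_ee, smul_eq_mul, G_ee]

theorem G_mul_ee (a b : Fin (X.dim + 1)) :
    (frob hF h1).G (ee hF h1 a * ee hF h1 b) =
    ∑ l, QQ F [hpow X a, hpow X b] l * ser (cor F 1 [hpow X l]) := by
  rw [lin_expand hF h1 (frob hF h1).G]
  refine Finset.sum_congr rfl fun l _ => ?_
  rw [mul_ee, smul_eq_mul, G_ee]

theorem T1 : (frob hF h1).H (ee hF h1 (v 0) * ee hF h1 (v 1)) (ee hF h1 (v 2) * ee hF h1 (v 3)) =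
    Gz1 F v := by
  unfold Gz1
  rw [← Hl_apply, lin_expand hF h1 (Hl hF h1 _)]
  refine Finset.sum_congr rfl fun k _ => ?_
  rw [mul_ee, smul_eq_mul, Hl_apply, H_mul_ee]

theorem T2 : (frob hF h1).H (ee hF h1 (v 0) * ee hF h1 (v 1) * ee hF h1 (v 2))
    (ee hF h1 (v 3)) = Gz2 F v := by
  unfold Gz2
  rw [← Hl_apply, ← mulR_apply hF h1 (ee hF h1 (v 0) * ee hF h1 (v 1)), ← LinearMap.comp_apply,
    lin_expand hF h1 ((Hl hF h1 _).comp (mulR hF h1 _))]
  refine Finset.sum_congr rfl fun k _ => ?_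
  rw [mul_ee, smul_eq_mul, LinearMap.comp_apply, mulR_apply, Hl_apply, H_mul_ee']

theorem T3 : (frob hF h1).G ((frob hF h1).c4 (ee hF h1 (v 0) * ee hF h1 (v 1))
    (ee hF h1 (v 2)) (ee hF h1 (v 3))) = Gz3 F v := by
  unfold Gz3
  rw [← c4l_apply, ← LinearMap.comp_apply,
    lin_expand hF h1 ((frob hF h1).G.comp (c4l hF h1 _ _))]
  refine Finset.sum_congr rfl fun k _ => ?_
  rw [mul_ee, smul_eq_mul, LinearMap.comp_apply, c4l_apply, G_c4_ee]

theorem T4 : (frob hF h1).G ((frob hF h1).c4 (ee hF h1 (v 0)) (ee hF h1 (v 1))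
    (ee hF h1 (v 2)) * ee hF h1 (v 3)) = Gz4 F v := by
  unfold Gz4
  rw [← mulR_apply, ← LinearMap.comp_apply, lin_expand hF h1 ((frob hF h1).G.comp (mulR hF h1 _))]
  refine Finset.sum_congr rfl fun k _ => ?_
  rw [c4_ee, smul_eq_mul, LinearMap.comp_apply, mulR_apply, G_mul_ee]

theorem T5 : (frob hF h1).str ((frob hF h1).c4O (ee hF h1 (v 3)) ((frob hF h1).c4
    (ee hF h1 (v 0)) (ee hF h1 (v 1)) (ee hF h1 (v 2)))) = Gz5 h1 v := by
  unfold Gz5
  rw [← c4Or_apply, ← LinearMap.comp_apply,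
    lin_expand hF h1 ((frob hF h1).str.comp (c4Or hF h1 _))]
  refine Finset.sum_congr rfl fun k _ => ?_
  rw [c4_ee, smul_eq_mul, LinearMap.comp_apply, c4Or_apply, str_c4O hF h1 k (v 3)]

theorem T6 : (frob hF h1).str ((frob hF h1).C ((frob hF h1).c5 (ee hF h1 (v 0))
    (ee hF h1 (v 1)) (ee hF h1 (v 2)) (ee hF h1 (v 3)))) = Gz6 h1 v := by
  unfold Gz6
  have e0 : ∀ x : AA hF h1, (frob hF h1).str ((frob hF h1).C x) =
    ((frob hF h1).str.comp (frob hF h1).C.toLinearMap) x := fun _ => rfl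
  rw [e0, lin_expand hF h1 ((frob hF h1).str.comp (frob hF h1).C.toLinearMap)]
  refine Finset.sum_congr rfl fun k _ => ?_
  rw [c5_ee, smul_eq_mul, ← e0, str_C hF h1 k]

theorem T7 : (frob hF h1).str ((frob hF h1).c4O (ee hF h1 (v 0)) (ee hF h1 (v 1)) *
    (frob hF h1).c4O (ee hF h1 (v 2)) (ee hF h1 (v 3))) = Gz7 h1 v :=
  str_c4O_mul hF h1 (v 0) (v 1) (v 2) (v 3)

theorem rat_smul (q : ℚ) (f : RR X) : q • f = (q : ℂ) • f := by
  funext α
  change q • f α = (q : ℂ) • f α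
  ext n
  change q • (PowerSeries.coeff n (f α)) = (q : ℂ) * PowerSeries.coeff n (f α)
  rw [Algebra.smul_def]
  rfl

theorem term_ee : (frob hF h1).term (fun i => ee hF h1 (v i)) = ser (getzlerTerm F v) := by
  rw [ser_getzlerTerm hF h1 v]
  unfold Frob.term
  rw [T1, T2, T3, T4, T5, T6, T7, rat_smul, rat_smul, rat_smul]
  have h3 : (3 : RR X) * Gz1 F v = (3:ℂ) • Gz1 F v := by
    rw [← cst_mul]; congr 1
  have h4 : (4 : RR X) * Gz2 F v = (4:ℂ) • Gz2 F v := by
    rw [← cst_mul]; congr 1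
  have h2 : (2 : RR X) * Gz4 F v = (2:ℂ) • Gz4 F v := by
    rw [← cst_mul]; congr 1
  rw [h3, h4, h2]
  push_cast
  rfl

/-- **[c7]** Getzler's relation, by multilinearity from `h1.getzler` -/
theorem frob_getzler : (frob hF h1).Getzler := by
  refine getzler_of_basis (frob hF h1) (ee hF h1) fun w => ?_
  have e : ∀ σ : Equiv.Perm (Fin 4), (frob hF h1).term (fun i => ee hF h1 (w (σ i))) =
      serL X (getzlerTerm F (w ∘ σ)) := fun σ => term_ee hF h1 (w ∘ σ)
  simp only [e]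
  rw [← map_sum]
  refine ser_zero fun d L => ?_
  rw [Finset.sum_apply, Finset.sum_apply]
  exact h1.getzler w d L

end Vale.Agent.P269.G1.H654
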